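import Vale.Agent.P348S42.Defs
import Vale.Agent.P361S42.Rep
import Vale.Agent.P361S42.Kr
import Mathlib.Analysis.Matrix.Spectrum
import Mathlib.LinearAlgebra.Eigenspace.Matrix

/-!
# The eigenvalues do not depend on the choice of the spin matrices
-/

set_option linter.all false

namespace Vale.Agent.P348S42

open Matrix Complex
open Vale.Agent.P348
open Vale.Agent.P361S42

theorem std : IsSpin 1 spin := by
  have h : ((Real.sqrt 2 : ℝ) : ℂ)⁻¹ ^ 2 = 1 / 2 := by
    rw [inv_pow, ← ofReal_pow, Real.sq_sqrt (by norm_num)]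
    norm_num
  have I2 : I ^ 2 = -1 := I_sq
  unfold spin
  generalize ((Real.sqrt 2 : ℝ) : ℂ)⁻¹ = r at *
  refine ⟨fun a b => ?_, ?_⟩
  · fin_cases a <;> fin_cases b <;> ext i j <;> fin_cases i <;> fin_cases j <;>
      simp [eps, Fin.sum_univ_three] <;> ring_nf <;> simp [h, I2] <;> ring
  · ext i j
    fin_cases i <;> fin_cases j <;> simp [Fin.sum_univ_three] <;> ring_nf <;>
      simp [h, I2] <;> norm_num

theorem herm (a : Fin 3) : (spin a).IsHermitian := by
  fin_cases a <;> ext i j <;> fin_cases i <;> fin_cases j <;> simp [spin]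

theorem two {S : Fin 3 → Matrix (Fin 3) (Fin 3) ℂ} (h : IsSpin 1 S) :
    IsSpin (((2 : ℕ) : ℝ) / 2) (d := Fin (2 + 1)) S := by
  rwa [show (((2 : ℕ) : ℝ) / 2) = 1 by norm_num]

variable {L : ℕ}

theorem onSite_eq (j : Fin L) (A : Matrix (Fin 3) (Fin 3) ℂ) :
    onSite j A = kr fun y => if y = j then A else 1 := by
  ext s t
  rw [kr, of_apply, ← Finset.mul_prod_erase _ _ (Finset.mem_univ j), if_pos rfl,
    Finset.prod_congr rfl (g := fun y => if s y = t y then (1 : ℂ) else 0) fun y hy => by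
      rw [if_neg (Finset.mem_erase.1 hy).1, one_apply]]
  simp [onSite, Finset.prod_ite_zero]

theorem site_comm' (A : Matrix (Fin 3) (Fin 3) ℂ) (x y : Fin L) :
    Commute (onSite x A) (onSite y A) := by
  rw [onSite_eq, onSite_eq]
  exact site_comm (n := 2) A x y

theorem site_herm {A : Matrix (Fin 3) (Fin 3) ℂ} (h : A.IsHermitian) (x : Fin L) :
    IsSelfAdjoint (onSite x A) := by
  ext s t
  simp only [star_apply, onSite, eq_comm (a := t _)]
  split_ifs
  · exact h.apply _ _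
  · exact star_zero _

variable [NeZero L]

theorem eig_iff {S : Fin 3 → Matrix (Fin 3) (Fin 3) ℂ} (h : IsSpin 1 S) (μ : ℂ) :
    IsEig S L μ ↔ μ ∈ spectrum ℂ (haldaneH L) := by
  obtain ⟨U, hU, a⟩ := uniq (two h) (two std)
  obtain ⟨K, hK⟩ := kr_unit (V := Fin L) hU
  have b : ∀ (x : Fin L) c, SemiconjBy K.1 (onSite x (spin c)) (onSite x (S c)) := fun x c => by
    rw [hK, onSite_eq, onSite_eq]
    exact (kr_conj (a c) x).symm
  have c : K.1 * haldaneH L = ham S L * K.1 := by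
    simp only [haldaneH, ham, Finset.mul_sum, Finset.sum_mul]
    exact Finset.sum_congr rfl fun j _ => Finset.sum_congr rfl fun c _ =>
      ((b j c).mul_right (b (j + 1) c)).eq
  rw [IsEig, Module.End.hasEigenvalue_iff_mem_spectrum, spectrum_toLin',
    ← (Units.mul_inv_eq_iff_eq_mul K).2 c, spectrum.units_conjugate]

theorem eig_real {μ : ℂ} (h : μ ∈ spectrum ℂ (haldaneH L)) : μ.im = 0 := by
  have a : (haldaneH L).IsHermitian :=
    isSelfAdjoint_sum _ fun j _ => isSelfAdjoint_sum _ fun c _ =>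
      ((site_herm (herm c) j).commute_iff (site_herm (herm c) _)).1 (site_comm' _ _ _)
  rw [a.spectrum_eq_image_range] at h
  obtain ⟨x, -, rfl⟩ := h
  exact ofReal_im x

theorem eig_set {S : Fin 3 → Matrix (Fin 3) (Fin 3) ℂ} (h : IsSpin 1 S) (E : ℝ) :
    IsEig S L E ↔ E ∈ energies L := by
  rw [eig_iff h, ← spectrum_toLin', ← Module.End.hasEigenvalue_iff_mem_spectrum]
  refine ⟨fun h => ?_, fun ⟨ψ, a, b⟩ =>
    Module.End.hasEigenvalue_of_hasEigenvector ⟨Module.End.mem_eigenspace_iff.2 b, a⟩⟩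
  obtain ⟨ψ, hψ⟩ := h.exists_hasEigenvector
  exact ⟨ψ, hψ.2, hψ.apply_eq_smul⟩

end Vale.Agent.P348S42
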