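import Vale.Agent.P361S42.St0
import Vale.Agent.P348.Defs
import Mathlib.LinearAlgebra.Eigenspace.Basic

/-!
# The spin-one Heisenberg chain built from any spin matrices `S 0, S 1, S 2` on `ℂ³`
-/

noncomputable section

namespace Vale.Agent.P348S42

open Vale.Agent.P348 (onSite)

variable (S : Fin 3 → Matrix (Fin 3) (Fin 3) ℂ) (L : ℕ) [NeZero L]

/-- `H_L`. -/
def ham : Matrix (Fin L → Fin 3) (Fin L → Fin 3) ℂ :=
  ∑ j : Fin L, ∑ a : Fin 3, onSite j (S a) * onSite (j + 1) (S a)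

/-- `μ` is an eigenvalue of `H_L`. -/
def IsEig (μ : ℂ) : Prop := Module.End.HasEigenvalue (Matrix.toLin' (ham S L)) μ

end Vale.Agent.P348S42
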