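import Vale.Agent.P348S42.Br
import Vale.Agent.P348.Bdl.B3

/-!
# The Haldane gap for all spin-one matrices
-/

set_option linter.all false

namespace Vale.Agent.P348S42

open Filter Topology
open Vale.Agent.P348
open Vale.Agent.P361S42

theorem main :
    (∃ S : Fin 3 → Matrix (Fin 3) (Fin 3) ℂ, IsSpin 1 S ∧ ∀ a, (S a).IsHermitian) ∧
    ∀ S : Fin 3 → Matrix (Fin 3) (Fin 3) ℂ, IsSpin 1 S → Irred S ∧
      (∀ T : Fin 3 → Matrix (Fin 3) (Fin 3) ℂ, IsSpin 1 T →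
        ∃ U, IsUnit U ∧ ∀ a, S a * U = U * T a) ∧
      ∃ E₀ E₁ : ℕ → ℝ,
        (∀ (L : ℕ) [NeZero L], Even L → 4 ≤ L → (∀ μ, IsEig S L μ → μ.im = 0) ∧
          IsLeast {E : ℝ | IsEig S L E} (E₀ L) ∧
          IsLeast {E : ℝ | IsEig S L E ∧ E₀ L < E} (E₁ L)) ∧
        (∃ γ : ℝ, 0 < γ ∧ ∀ L : ℕ, Even L → 4 ≤ L → γ ≤ E₁ L - E₀ L) ∧
        0 < liminf (fun L : ℕ => ((E₁ L - E₀ L : ℝ) : EReal)) (atTop ⊓ 𝓟 {L | Even L}) := by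
  obtain ⟨⟨γ, γ0, h⟩, -⟩ := haldane_gap
  have c : ∀ L : ℕ, ∃ a b : ℝ, ∀ [NeZero L], a = E0 L ∧ b = E1 L := fun L => by
    cases L with
    | zero => exact ⟨0, 0, fun [h : NeZero 0] => (h.out rfl).elim⟩
    | succ L => exact ⟨E0 (L + 1), E1 (L + 1), ⟨rfl, rfl⟩⟩
  choose E₀ E₁ c using c
  have g : ∀ L : ℕ, Even L → 4 ≤ L → γ ≤ E₁ L - E₀ L := fun L h1 h2 => by
    have : NeZero L := ⟨by omega⟩
    rw [(c L).1, (c L).2]
    exact (h L h1 h2).2.2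
  refine ⟨⟨spin, std, herm⟩, fun S hS => ⟨irred (two hS), fun T hT => uniq (two hS) (two hT),
    E₀, E₁, fun L _ h1 h2 => ⟨fun μ hμ => eig_real ((eig_iff hS μ).1 hμ), ?_⟩, ⟨γ, γ0, g⟩, ?_⟩⟩
  · simp only [eig_set hS, (c L).1, (c L).2]
    exact ⟨(h L h1 h2).1, (h L h1 h2).2.1⟩
  · refine (EReal.coe_pos.2 γ0).trans_le (le_liminf_of_le (by isBoundedDefault) ?_)
    rw [eventually_inf_principal]
    exact (eventually_ge_atTop 4).mono fun L h2 h1 => EReal.coe_le_coe_iff.2 (g L h1 h2)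

end Vale.Agent.P348S42
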